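import Vale.Agent.P154.D4.K2.Charts

set_option maxRecDepth 100000

namespace Vale.Agent.P154.D4.K2

open Cert InT OutT

/-- Certificate tree. -/
def tr01_r1 : OutT :=
(A (B (A (B (A (O (c (c (c l (c l l)) (c (c l l) (c l (c l l)))) (c (c (d (c l l) (c l k)) k) k))) (O (c (c (c l (c l l)) (c (c l l) (c l (c l l)))) (c (c (d (c l l) (c l k)) k) k)))) (A (B (O (c (c (c l (c l l)) (c (c l l) (c l (c l l)))) (c (c (d (c l l) (c l k)) k) k))) (O (c (c (c (c l l) (c l l)) (c (c l l) (c l (c l l)))) (c (c (d (c l l) (c l k)) k) k)))) (B (O (c (c (c l (c l l)) (c (c l l) (c l (c l l)))) (c (c (d (c l l) (c l k)) k) k))) (O (c (c (c (c l l) (c l l)) (c (c l l) (c l (c l l)))) (c (c (d (c l l) (c l k)) k) k)))))) (B (A s s) (A (B (O (c (c (c l l) (c (c l l) (c l (c l l)))) (c (c (d (c l l) (c l k)) k) k))) (O (c (c (c (c l l) (c l l)) (c (c l l) (c l (c l l)))) (c (c (d (c l l) (c l k)) k) k)))) (B s (A s s))))) (A (B (A (B (O (c (c (c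 (c (c l l) (c l l)) (c l l)) (c (c l l) (c l (c l l)))) (c (c (d (c l l) (c l k)) k) k))) (A (O (c (c (c (c (c l l) l) (c l l)) (c (c l l) (c l (c l l)))) (c (c (d (c l l) (c l k)) k) k))) (O (c (c (c (c (c l l) l) (c l l)) (c (c l l) (c l (c l l)))) (c (c (d (c l l) (c l k)) k) k))))) (B (A (O (c (c (c (c l l) (c l l)) (c (c l l) (c l (c l l)))) (c (c (d (c l l) (c l k)) k) k))) (O (c (c (c (c (c l l) l) (c l l)) (c (c l l) (c l (c l l)))) (c (c (d (c l l) (c l k)) k) k)))) (A (O (c (c (c (c (c (c l l) l) (c l l)) (c l l)) (c (c l l) (c l (c l l)))) (c (c (d (c l l) (c l k)) k) k))) (B (O (c (c (c (c l l) (c l l)) (c (c l l) (c l l))) (c (c (d (c l l) (c l k)) k) k))) (O (c (c (c (c l l) (c l l)) (c (c l l) (c l l))) (c (c (d (c l l) (c l k)) k) k))))))) (A (B (A (B (O (c (c (c (c (c l l) l) (c l l)) (c (c l l) (c l l))) (c (c (d (c l l) (c l k)) k) k))) (O (c (c (c (c (c l l) l) (c l l)) (c (c l l) (c l l))) (c (c (d (c l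 l) (c l k)) k) k)))) (B (O (c (c (c (c (c l l) l) (c l l)) (c (c l l) (c l l))) (c (c (d (c l l) (c l k)) k) k))) (O (c (c (c (c l l) (c l l)) (c (c l l) (c l l))) (c (c (d l (c l k)) k) k))))) (A (O (c (c (c (c (c (c l l) l) (c l l)) (c l l)) (c (c l l) (c l l))) (c (c (d (c l l) (c l k)) k) k))) (O (c (c (c (c (c l l) l) (c l l)) (c (c l l) (c l l))) (c (c (d (c l l) (c l k)) k) k))))) (B (A (B (O (c (c (c (c l l) (c l l)) (c (c l l) (c l l))) (c (c (d l (c l k)) k) k))) (O (c (c (c (c l l) (c l l)) (c (c l l) (c l l))) (c (c (d l (c l k)) k) k)))) (O (c (c (c (c (c l l) l) (c l l)) (c (c l l) (c l l))) (c (c (d (c l l) (c l k)) k) k)))) (A (O (c (c (c (c l l) (c l l)) (c (c l l) (c l l))) (c (c (d l (c l k)) k) k))) (O (c (c (c (c l l) l) (c (c l l) (c l l))) (c (c (d l (c l k)) k) k))))))) (B (A (B (A (O (c (c (c (c (c l l) l) (c l l)) (c (c l l) (c l (c l l)))) (c (c (d (c l l) (c l k)) k) k))) (O (c (c (c (c l l) (c l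 l)) (c (c l l) (c l (c l l)))) (c (c (d (c l l) (c l k)) k) k)))) (A (B (O (c (c (c (c l l) (c l l)) (c (c l l) (c l l))) (c (c (d (c l l) (c l k)) k) k))) (O (c (c (c (c l l) l) (c (c l l) (c l l))) (c (c (d (c l l) (c l k)) k) k)))) (B (O (c (c (c (c l l) l) (c (c l l) (c l l))) (c (c (d (c l l) (c l k)) k) k))) (O (c (c (c (c l l) l) (c l (c l l))) (c (c (d (c l l) (c l k)) k) k)))))) (B (A (O (c (c (c (c (c (c l l) l) (c l l)) (c l l)) (c (c l l) (c l (c l l)))) (c (c (d (c l l) (c l k)) k) k))) s) (A (B (O (c (c (c (c l l) l) (c (c l l) (c l l))) (c (c (d (c l l) (c l k)) k) k))) (O (c (c (c l l) (c l (c l l))) (c (c (d (c l l) (c l k)) k) k)))) (O (c (c (c (c (c l l) l) (c l l)) (c (c l l) (c l (c l l)))) (c (c (d (c l l) (c l k)) k) k)))))) (A (B (A (O (c (c (c (c l l) (c l l)) (c (c l l) (c l l))) (c (c (d (c l l) (c l k)) k) k))) (O (c (c (c (c l l) (c l l)) (c (c l l) (c l l))) (c (c (d (c l l) (c l k)) k) k)))) (A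 (O (c (c (c l l) (c l (c l l))) (c (c (d l (c l k)) k) k))) (O (c (c (c l l) (c l (c l l))) (c (c (d l (c l k)) k) k))))) (B (A (O (c (c (c l l) (c (c l l) (c l l))) (c (c (d (c l l) (c l k)) k) k))) (O (c (c (c l l) (c l (c l l))) (c (c (d (c l l) (c l k)) k) k)))) (O (c (c (c l l) (c (c l l) (c l l))) (c (c (d (c l l) (c l k)) k) k)))))))) (B (A s s) (A (B (A (B s (A (O (c (c (c (c l l) (c l l)) (c (c l l) (c l (c l l)))) (c (c (d (c l l) (c l k)) k) k))) s)) (B s (A s s))) (A (B (O (c (c (c (c l l) (c l l)) (c (c l l) (c l (c l l)))) (c (c (d (c l l) (c l k)) k) k))) (O (c (c (c l l) (c l (c l l))) (c (c (d (c l l) (c l k)) k) k)))) (B (O (c (c (c l l) (c (c l l) (c l (c l l)))) (c (c (d (d l (c l k)) (c l k)) k) k))) (O (c (c l (c l (c l l))) (c (c (d (c l l) (c l k)) k) k)))))) (B (A s s) (A (B (O (c (c l (c l (d l (c l l)))) (c (c (d (d (c l l) (c l k)) (c l k)) k) k))) (O (c (c l (c l l)) (c (c (d l (c l k)) k) k))))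 (B (O (c (c l (c l (d l l))) (c (c (d (c l (d (c l k) k)) (c l k)) k) k))) (O (c (c l l) (c (c (d l l) k) k)))))))))

theorem s01_r1 : Sound P01 32768 16384 0 32768 :=
  chkOut2_sound P01 KK tr01_r1 32768 16384 0 32768 (by decide +kernel)

end Vale.Agent.P154.D4.K2
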